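import Vale.Agent.P146.Defs
import Vale.Agent.P146.H196.UDefs
import Vale.Agent.N146.Defs
import Vale.Agent.N146.LawDefs
import Vale.Agent.N146.Proc.Defs
import Vale.Agent.N146.SlopeDefs
import Vale.Agent.N146.Sharp.Close

/-!
# P146: the law of the fluctuations of the Sherrington-Kirkpatrick free energy

The order of the fluctuations, the tails and the shape of each limit law are in the starting file
`TwoSided`, the existence of the slope `a` in `ExactChaos`; they are not stated here.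
For every `b > 1`, with `Y_n = (F_n - E F_n) / n ^ (1/6)`:
1. the law of `Y_n` is log-concave up to `C n ^ (-1/6)` in total variation;
2. the large deviation regime matches the typical scale with the exact constants:
   `log E exp (u Y) ~ L u ^ 6` and `log P(Y ≥ u) ~ -J u ^ (6/5)` hold for `Y_n` from a constant `K`
   up to the macroscopic scale and for all limit laws; `L = 9 b³ / (640 a³)`, where `a` is the slope
   at the origin of the Parisi order parameter, and `J = (5/6) (6 L) ^ (-1/5)`;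
3. the set of limit laws is connected, and the law of `Y_n` approaches it in total variation, with
   all moments, exponential moments and a local limit theorem;
4. for all sizes built on one array of couplings, the fluctuations are renewed when `m ^ (2/3)`
   sites are renewed;
5. almost surely the limit points of `Y_n / (log n) ^ (5/6)` fill a nonrandom interval `[0, M]`;
6. along a rotation of the disorder by the angle `τ / n ^ (1/6)` the paths `τ ↦ Y_n` are tight, and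
   their limits are stationary, reversible, Hoelder continuous, mixing processes.
-/

open MeasureTheory ProbabilityTheory Filter Topology

namespace Vale.Agent.Results.P146.A0Law

open Vale.Agent.P146 Vale.Agent.N146
open Vale.Agent.P146.H509 (Yn lawY)
open Vale.Agent.N146.Proc (lawP shift rev)

/-- the slope is unique -/
theorem slope_le {b a a' : ℝ} (h : Slope b a) (h' : Slope b a') : a ≤ a' := by
  obtain ⟨p, x, g, m, n, t⟩ := h
  obtain ⟨p', x', g', m', n', t'⟩ := h'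
  obtain rfl := g.unique g'
  have e : ∀ y ∈ Set.Icc (0 : ℝ) 1, ∫ u in y..1, x u = ∫ u in y..1, x' u := fun y hy => by
    refine eq_of_forall_dist_le fun ε hε => ?_
    obtain ⟨d, d0, k⟩ := n (ε / 2) (by positivity)
    obtain ⟨d', d0', k'⟩ := n' (ε / 2) (by positivity)
    obtain ⟨_, ⟨K, w, q, o, rfl⟩, -, l⟩ := g.exists_between (lt_add_of_pos_right p (lt_min d0 d0'))
    have a1 := abs_le.1 (k K w q o (by linarith [min_le_left d d']) y hy)
    have a2 := abs_le.1 (k' K w q o (by linarith [min_le_right d d']) y hy)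
    rw [Real.dist_eq, abs_le]
    constructor <;> linarith [a1.1, a1.2, a2.1, a2.2]
  by_contra hc
  obtain ⟨z, z1, z2⟩ := exists_between (not_le.1 hc)
  obtain ⟨η, η0, k⟩ := mem_nhdsGT_iff_exists_Ioo_subset.1
    ((t.eventually (lt_mem_nhds z2)).and (t'.eventually (gt_mem_nhds z1)))
  have r0 : 0 < min η 1 := lt_min η0 one_pos
  have i := fun u v : ℝ => m.intervalIntegrable (μ := volume) (a := u) (b := v)
  have i' := fun u v : ℝ => m'.intervalIntegrable (μ := volume) (a := u) (b := v)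
  have pos := intervalIntegral.intervalIntegral_pos_of_pos_on ((i 0 (min η 1)).sub (i' 0 (min η 1)))
    (fun y hy => by
      obtain ⟨k1, k2⟩ := k ⟨hy.1, hy.2.trans_le (min_le_left _ _)⟩
      exact sub_pos.2 ((div_lt_div_iff_of_pos_right hy.1).1 (k2.trans k1))) r0
  rw [intervalIntegral.integral_sub (i _ _) (i' _ _)] at pos
  have s1 := intervalIntegral.integral_add_adjacent_intervals (i 0 (min η 1)) (i (min η 1) 1)
  have s2 := intervalIntegral.integral_add_adjacent_intervals (i' 0 (min η 1)) (i' (min η 1) 1)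
  linarith [e 0 ⟨le_rfl, zero_le_one⟩, e (min η 1) ⟨r0.le, min_le_right _ _⟩]

theorem result [MeasurableSpace C(ℝ, ℝ)] [BorelSpace C(ℝ, ℝ)] (b : ℝ) (hb : 1 < b) :
    -- 1. every size: log-concavity up to a small error
    (∃ C : ℝ, ∀ n : ℕ, 2 ≤ n →
      ∃ q : ℝ → ℝ, LogConc q ∧ Integrable q ∧ ∫ x, q x = 1 ∧ ∀ A : Set ℝ, MeasurableSet A →
        |(lawY b n : Measure ℝ).real A - ∫ x in A, q x| ≤ C / (n : ℝ) ^ (1 / 6 : ℝ)) ∧
    -- 2. the exact constants of the right tail, down to the typical scale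
    (∃ a L J : ℝ, 0 < a ∧ (∀ a' : ℝ, Slope b a' → a' = a) ∧
      L = 9 * b ^ 3 / (640 * a ^ 3) ∧ J = 5 / 6 * (6 * L) ^ (-(1 / 5) : ℝ) ∧
      ∀ ε : ℝ, 0 < ε → ∃ K d : ℝ, 0 < d ∧
      (∀ᶠ n : ℕ in atTop, ∀ u : ℝ, K ≤ u →
        (u ≤ d * (n : ℝ) ^ (1 / 6 : ℝ) →
          |Real.log (∫ g, Real.exp (u * Yn n b g) ∂(disorder n)) - L * u ^ 6| ≤ ε * u ^ 6) ∧
        (u ≤ d * (n : ℝ) ^ (5 / 6 : ℝ) →
          |Real.log ((lawY b n : Measure ℝ).real (Set.Ici u)) + J * u ^ (6 / 5 : ℝ)| ≤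
            ε * u ^ (6 / 5 : ℝ))) ∧
      ∀ ν ∈ limits b, ∀ u : ℝ, K ≤ u →
        |Real.log (∫ y, Real.exp (u * y) ∂(ν : Measure ℝ)) - L * u ^ 6| ≤ ε * u ^ 6 ∧
        |Real.log ((ν : Measure ℝ).real (Set.Ici u)) + J * u ^ (6 / 5 : ℝ)| ≤
          ε * u ^ (6 / 5 : ℝ) ∧
        ∀ p : ℝ → ℝ, LogConc p →
          ((ν : Measure ℝ) = volume.withDensity fun x => ENNReal.ofReal (p x)) →
          |Real.log (p u) + J * u ^ (6 / 5 : ℝ)| ≤ ε * u ^ (6 / 5 : ℝ)) ∧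
    -- 3. the set of limit laws
    (IsConnected (limits b) ∧
      (∀ ε : ℝ, 0 < ε → ∀ᶠ n in atTop, ∃ ν ∈ limits b, ∀ A : Set ℝ, MeasurableSet A →
        |(lawY b n : Measure ℝ).real A - (ν : Measure ℝ).real A| ≤ ε) ∧
      ((fun ν : ProbabilityMeasure ℝ => ∫ y, y ^ 2 ∂(ν : Measure ℝ)) '' limits b =
        Set.Icc
          (liminf (fun n : ℕ => Var[freeEnergy n b; disorder n] / (n : ℝ) ^ (1 / 3 : ℝ)) atTop)
          (limsup (fun n : ℕ => Var[freeEnergy n b; disorder n] / (n : ℝ) ^ (1 / 3 : ℝ)) atTop)) ∧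
      ∀ φ : ℕ → ℕ, Tendsto φ atTop atTop →
        ∀ ν : ProbabilityMeasure ℝ, Tendsto (lawY b ∘ φ) atTop (𝓝 ν) →
        -- total variation, moments, exponential moments
        (∀ ε : ℝ, 0 < ε → ∀ᶠ j in atTop, ∀ A : Set ℝ, MeasurableSet A →
          |(lawY b (φ j) : Measure ℝ).real A - (ν : Measure ℝ).real A| ≤ ε) ∧
        (∀ k : ℕ, Tendsto (fun j => ∫ g, Yn (φ j) b g ^ k ∂(disorder (φ j))) atTop
          (𝓝 (∫ y, y ^ k ∂(ν : Measure ℝ)))) ∧
        (∀ x : ℝ,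
          Tendsto (fun j => ∫ g, Real.exp (x * Yn (φ j) b g) ∂(disorder (φ j))) atTop
            (𝓝 (∫ y, Real.exp (x * y) ∂(ν : Measure ℝ)))) ∧
        -- the local limit theorem, for intervals of any length
        ∀ p : ℝ → ℝ, LogConc p →
          ((ν : Measure ℝ) = volume.withDensity fun x => ENNReal.ofReal (p x)) →
          ∀ a x : ℝ, a < x → 0 < p a → 0 < p x ∧ ContinuousAt p x ∧ ∀ ε : ℝ, 0 < ε →
            ∃ δ : ℝ, 0 < δ ∧ ∀ᶠ j in atTop, ∀ u v : ℝ, x - δ ≤ u → u < v → v ≤ x + δ →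
              |(lawY b (φ j) : Measure ℝ).real (Set.Ioc u v) / (v - u) - p x| ≤ ε) ∧
    -- 4. two sizes `n < m` on one array of couplings
    (∃ C : ℝ, 0 < C ∧ ∀ n m : ℕ, 1 ≤ n → n < m →
      ∫ ω, (Yn m b (rn m ω) - Yn n b (rn n ω)) ^ 2 ∂arr ≤
        C * (((m : ℝ) - n) / (n : ℝ) ^ (1 / 6 : ℝ)) ^ 2 ∧
      (∀ f : (Pair n → ℝ) → ℝ, Measurable f → (∀ g, |f g| ≤ 1) → ∀ h : ℝ → ℝ, LipschitzWith 1 h →
        |cov[fun ω => f (rn n ω), fun ω => h (Yn m b (rn m ω)); arr]| ≤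
          C * (((m : ℝ) - n) / (m : ℝ) ^ (2 / 3 : ℝ)) ^ (-(1 / 8000) : ℝ)) ∧
      (1 - C * (((m : ℝ) - n) / (m : ℝ) ^ (2 / 3 : ℝ)) ^ (1 / 1000 : ℝ)) *
          Var[freeEnergy m b; disorder m] ≤
        cov[fun q => freeEnergy m b (rn m q.1), fun q => freeEnergy m b (rn m (splice n q.1 q.2));
          arr.prod arr] ∧
      cov[fun q => freeEnergy m b (rn m q.1), fun q => freeEnergy m b (rn m (splice n q.1 q.2));
          arr.prod arr] ≤
        C * (((m : ℝ) - n) / (m : ℝ) ^ (2 / 3 : ℝ)) ^ (-(1 / 4000) : ℝ) *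
          Var[freeEnergy m b; disorder m]) ∧
    -- 5. the law of the logarithm
    (∃ (M : ℝ) (l : EReal), 0 < M ∧ l < 0 ∧ ∀ᵐ ω ∂arr,
      (∀ e : ℝ, 0 < e → ∀ᶠ n : ℕ in atTop, -e ≤ Yn n b (rn n ω) / Real.log n ^ (5 / 6 : ℝ) ∧
        Yn n b (rn n ω) / Real.log n ^ (5 / 6 : ℝ) ≤ M + e) ∧
      (∀ x : ℝ, MapClusterPt x atTop (fun n : ℕ => Yn n b (rn n ω) / Real.log n ^ (5 / 6 : ℝ)) ↔
        x ∈ Set.Icc 0 M) ∧
      ∀ x : ℝ, MapClusterPt x atTop (fun n : ℕ => Yn n b (rn n ω)) ↔ l ≤ x) ∧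
    -- 6. the process along a rotation of the disorder
    IsTightMeasureSet {(lawP b n : Measure C(ℝ, ℝ)) | n} ∧
    ∃ C : ℝ, 0 < C ∧ ∀ φ : ℕ → ℕ, Tendsto φ atTop atTop →
      ∀ Q : ProbabilityMeasure C(ℝ, ℝ), Tendsto (lawP b ∘ φ) atTop (𝓝 Q) →
      (∃ ν : ProbabilityMeasure ℝ, Tendsto (lawY b ∘ φ) atTop (𝓝 ν) ∧
        ∀ τ : ℝ, (Q : Measure C(ℝ, ℝ)).map (fun y => y τ) = ν) ∧
      (∀ s, MeasurePreserving (shift s) (Q : Measure C(ℝ, ℝ)) Q) ∧
      MeasurePreserving rev (Q : Measure C(ℝ, ℝ)) Q ∧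
      (∀ᵐ y ∂(Q : Measure C(ℝ, ℝ)), ∀ S : ℝ, ∃ K : ℝ, ∀ σ τ : ℝ, |σ| ≤ S → |τ| ≤ S →
        |y τ - y σ| ≤ K * |τ - σ| ^ (1 / 2000 : ℝ)) ∧
      (∀ τ : ℝ, τ ≠ 0 → 0 ≤ ∫ y, y 0 * y τ ∂(Q : Measure C(ℝ, ℝ)) ∧
        ∫ y, y 0 * y τ ∂(Q : Measure C(ℝ, ℝ)) ≤ C * |τ| ^ (-(1 / 500) : ℝ)) ∧
      ∀ A B : Set C(ℝ, ℝ), MeasurableSet A → MeasurableSet B →
        Tendsto (fun τ => (Q : Measure C(ℝ, ℝ)).real (A ∩ shift τ ⁻¹' B)) atTop
          (𝓝 ((Q : Measure C(ℝ, ℝ)).real A * (Q : Measure C(ℝ, ℝ)).real B)) := by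
  obtain ⟨-, k2, k3, k4, c, C, -, -, h⟩ := part2 hb
  obtain ⟨⟨c0, C0, -, -, H⟩, -⟩ := H566.two_sided hb (H865.le_all hb)
  have hS : LawK.SB b C0 := fun n hn => (H n hn).2.2.1
  refine ⟨?_, ?_, ⟨k2, k3, k4, fun φ hφ ν hν => ?_⟩, part3 hb, part4 hb, part5 hb⟩
  · obtain ⟨_, D, -, -, G⟩ := part1 hb
    exact ⟨D, fun n hn => (G n hn).2.2.2.2.2⟩
  · obtain ⟨a, L, J, ha, s, e1, e2, G⟩ := Sharp.part6_of hb (Sharp.kl hb)
    exact ⟨a, L, J, ha, fun a' s' => le_antisymm (slope_le s' s) (slope_le s s'), e1, e2, G⟩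
  · obtain ⟨g1, g2, g3, -, -, -, -, -, -, g9, -⟩ := h φ hφ ν hν
    exact ⟨g1, g2, fun x => (g3 x).2, fun p hp e a x hax ha => LawK.llt hS hφ hν hp.1 hp.2 e
      (fun t => ((Real.exp_pos _).trans_le (g9 (max C t) (le_max_left _ _)).1).trans_le
        (measureReal_mono (Set.Ici_subset_Ici.2 (le_max_right _ _)))) hax ha⟩

end Vale.Agent.Results.P146.A0Law
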